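import Vale.Agent.P084.Sperner
import Vale.Agent.P061.Lin

/-! A variational inequality and the duality between cut dominated forms and cut metrics. -/

namespace Vale.Agent.P061

open Finset Matrix

theorem ky_fan_fin {n : ℕ} (H : Fin (n + 1) → (Fin (n + 1) → ℝ) → ℝ)
    (hc : ∀ i, ContinuousOn (H i) (stdSimplex ℝ (Fin (n + 1))))
    (h0 : ∀ w ∈ stdSimplex ℝ (Fin (n + 1)), ∑ i, w i * H i w ≤ 0) :
    ∃ w ∈ stdSimplex ℝ (Fin (n + 1)), ∀ i, H i w ≤ 0 := by
  classical
  have hK := isCompact_stdSimplex ℝ (Fin (n + 1))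
  have happ : ∀ ε : ℝ, 0 < ε → ∃ w ∈ stdSimplex ℝ (Fin (n + 1)), ∀ i, H i w ≤ ε := by
    intro ε hε
    have hu := hK.uniformContinuousOn_of_continuous (continuousOn_pi.2 hc)
    obtain ⟨δ, hδ, hu⟩ := Metric.uniformContinuousOn_iff_le.1 hu ε hε
    have hex : ∀ w ∈ stdSimplex ℝ (Fin (n + 1)), ∃ i, 0 < w i ∧ H i w ≤ 0 := by
      intro w hw
      by_contra hcon
      push_neg at hcon
      have h1 : ∀ i ∈ univ, 0 ≤ w i * H i w := fun i _ => by
        rcases (hw.1 i).eq_or_lt with h | h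
        · rw [← h, zero_mul]
        · exact (mul_pos h (hcon i h)).le
      have h2 := (sum_eq_zero_iff_of_nonneg h1).1 (le_antisymm (h0 w hw) (sum_nonneg h1))
      have h3 : ∑ i, w i = 0 := sum_eq_zero fun i hi => by
        rcases (hw.1 i).eq_or_lt with h | h
        · exact h.symm
        · exact absurd (h2 i hi) (mul_pos h (hcon i h)).ne'
      rw [hw.2] at h3
      exact one_ne_zero h3
    choose! lab hlab using hex
    obtain ⟨W, h1, h2⟩ := P084.approx_sperner n hδ lab fun w a b => (hlab w ⟨a, b⟩).1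
    have hW : ∀ j, W j ∈ stdSimplex ℝ (Fin (n + 1)) := fun j => ⟨(h1 j).1, (h1 j).2.1⟩
    refine ⟨W 0, hW 0, fun i => ?_⟩
    have a := hu (W 0) (hW 0) (W i) (hW i) ((dist_pi_le_iff hδ.le).2 fun k => h2 0 i k)
    have b := (dist_le_pi_dist _ _ i).trans a
    have c := (hlab (W i) (hW i)).2
    rw [(h1 i).2.2] at c
    rw [Real.dist_eq] at b
    linarith [(abs_le.1 b).2]
  obtain ⟨w, hw, hmin⟩ := hK.exists_isMinOn ⟨_, single_mem_stdSimplex ℝ 0⟩
    (f := fun w => ∑ i, max (H i w) 0)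
    (continuousOn_finset_sum _ fun i _ => (hc i).sup continuousOn_const)
  refine ⟨w, hw, fun i => ?_⟩
  have h1 : H i w ≤ ∑ i, max (H i w) 0 := (le_max_left _ _).trans
    (single_le_sum (f := fun i => max (H i w) 0) (fun _ _ => le_max_right _ _) (mem_univ i))
  refine h1.trans (le_of_forall_pos_le_add fun ε hε => ?_)
  obtain ⟨w', hw', h2⟩ := happ (ε / (n + 1)) (by positivity)
  have h3 : ∑ i, max (H i w) 0 ≤ ∑ i, max (H i w') 0 := hmin hw'
  refine h3.trans ((sum_le_card_nsmul _ _ (ε / (n + 1)) fun i _ =>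
    max_le (h2 i) (by positivity)).trans ?_)
  simp only [card_univ, Fintype.card_fin, nsmul_eq_mul, zero_add]
  push_cast
  rw [mul_div_cancel₀ _ (by positivity)]

theorem ky_fan {X : Type*} [AddCommGroup X] [Module ℝ X] [TopologicalSpace X] [T2Space X]
    [ContinuousAdd X] [ContinuousSMul ℝ X] {K : Set X} (hK : IsCompact K) (hc : Convex ℝ K)
    (hne : K.Nonempty) (G : X → X →ₗ[ℝ] ℝ) (hG : ∀ y, ContinuousOn (fun x => G x y) K)
    (hG2 : ContinuousOn (fun x => G x x) K) : ∃ x ∈ K, ∀ y ∈ K, G x y ≤ G x x := by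
  classical
  obtain ⟨x0, hx0⟩ := hne
  obtain ⟨x, hx, h⟩ := hK.inter_iInter_nonempty
    (fun y : K => K ∩ (fun x => G x y - G x x) ⁻¹' Set.Iic 0)
    (fun y => ((hG y).sub hG2).preimage_isClosed_of_isClosed hK.isClosed isClosed_Iic) (by
      intro u
      obtain ⟨n, hn⟩ : ∃ n, Fintype.card (Option u) = n + 1 := ⟨_, Fintype.card_option⟩
      let eq := Fintype.equivFinOfCardEq hn
      let y : Fin (n + 1) → X := fun i => (eq.symm i).elim x0 fun a => a.1.1
      have hy : ∀ i, y i ∈ K := fun i => by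
        simp only [y]
        cases eq.symm i with
        | none => exact hx0
        | some a => exact a.1.2
      let p : (Fin (n + 1) → ℝ) → X := fun w => ∑ i, w i • y i
      have hp : Continuous p := by fun_prop
      have hpK : Set.MapsTo p (stdSimplex ℝ (Fin (n + 1))) K := fun w hw =>
        hc.sum_mem (fun i _ => hw.1 i) hw.2 fun i _ => hy i
      obtain ⟨w, hw, h⟩ := ky_fan_fin (fun i w => G (p w) (y i) - G (p w) (p w))
        (fun i => ((hG (y i)).sub hG2).comp hp.continuousOn hpK) fun w hw => by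
          have : G (p w) (p w) = ∑ i, w i * G (p w) (y i) := by
            nth_rewrite 2 [show p w = ∑ i, w i • y i from rfl]
            simp [map_sum]
          simp only [mul_sub, sum_sub_distrib, ← sum_mul, hw.2, ← this]
          simp
      refine ⟨p w, hpK hw, ?_⟩
      simp only [Set.mem_iInter]
      intro a ha
      refine ⟨hpK hw, ?_⟩
      have := h (eq (some ⟨a, ha⟩))
      simpa [y] using this)
  refine ⟨x, hx, fun y hy => ?_⟩
  have := (Set.mem_iInter.1 h ⟨y, hy⟩).2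
  simpa using this

variable {V : Type*} [Fintype V] [DecidableEq V]

theorem cut_dual {σ : Type*} [Fintype σ] (ind : σ → V → ℝ) (cap : σ → ℝ) (hcap : ∀ S, 0 < cap S)
    (Y : Matrix V V ℝ →ₗ[ℝ] ℝ) {H : ℝ}
    (h : ∀ D, PSD D → (∀ S, qf D (ind S) ≤ cap S) → Y D ≤ H) :
    ∃ lam : σ → ℝ, (∀ S, 0 ≤ lam S) ∧ ∑ S, lam S * cap S ≤ H ∧
      ∀ ξ, Y (rk ξ) ≤ ∑ S, lam S * (ξ ⬝ᵥ ind S) ^ 2 := by
  classical
  let O : Set ((σ → ℝ) × ℝ) := {p | (∀ S, p.1 S < cap S) ∧ H < p.2}
  let A : Set ((σ → ℝ) × ℝ) := {p | ∃ D, PSD D ∧ p = (fun S => qf D (ind S), Y D)}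
  have hO : Convex ℝ O := by
    rintro p ⟨p1, p2⟩ q ⟨q1, q2⟩ a b ha hb hab
    refine ⟨fun S => ?_, ?_⟩
    · exact convex_Iio (cap S) (p1 S) (q1 S) ha hb hab
    · exact convex_Ioi H p2 q2 ha hb hab
  have hOo : IsOpen O := by
    have : O = (⋂ S, {p | p.1 S < cap S}) ∩ {p | H < p.2} := by ext p; simp [O]
    rw [this]
    exact (isOpen_iInter_of_finite fun S => isOpen_lt (by fun_prop) continuous_const).inter
      (isOpen_lt continuous_const continuous_snd)
  have hA : Convex ℝ A := by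
    rintro _ ⟨D, hD, rfl⟩ _ ⟨D', hD', rfl⟩ a b ha hb -
    refine ⟨a • D + b • D', ⟨(hD.1.smul a).add (hD'.1.smul b), fun ξ => ?_⟩, ?_⟩
    · rw [qf_add, qf_smul, qf_smul]
      exact add_nonneg (mul_nonneg ha (hD.2 ξ)) (mul_nonneg hb (hD'.2 ξ))
    · ext <;> simp [qf_add, qf_smul]
  have hd : Disjoint O A := Set.disjoint_left.2 (by
    rintro _ ⟨h1, h2⟩ ⟨D, hD, rfl⟩
    exact absurd (h D hD fun S => (h1 S).le) (not_le.2 h2))
  obtain ⟨f, u, h1, h2⟩ := geometric_hahn_banach_open hO hOo hA hd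
  let l : σ → ℝ := fun S => f (Pi.single S 1, 0)
  obtain ⟨μ, hμ⟩ : ∃ μ, μ = -f (0, 1) := ⟨_, rfl⟩
  have hf : ∀ v x, f (v, x) = ∑ S, l S * v S - μ * x := fun v x => by
    have e : ((v, x) : (σ → ℝ) × ℝ) = ∑ S, v S • ((Pi.single S 1 : σ → ℝ), (0 : ℝ)) +
        x • ((0 : σ → ℝ), (1 : ℝ)) := by
      ext S
      · simp [Prod.fst_sum, Finset.sum_apply, Pi.single_apply]
      · simp [Prod.snd_sum]
    rw [e, map_add, map_sum, map_smul, hμ]
    simp only [map_smul, smul_eq_mul, l, mul_comm]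
    ring
  have ray : ∀ c d : ℝ, (∀ x, 0 < x → c ≤ x * d) → 0 ≤ d := by
    intro c d hcd
    by_contra hd'
    push_neg at hd'
    have := hcd ((|c| + 1) / -d) (div_pos (by positivity) (by linarith))
    have e : (|c| + 1) / -d * d = -(|c| + 1) := by
      have := hd'.ne
      field_simp
    linarith [neg_abs_le c]
  have hu : u ≤ 0 := by
    have := h2 _ ⟨0, ⟨by simp [IsSymm], fun ξ => by simp [qf]⟩, rfl⟩
    simpa [hf, qf] using this
  have hcone : ∀ ξ, 0 ≤ ∑ S, l S * (ξ ⬝ᵥ ind S) ^ 2 - μ * Y (rk ξ) := fun ξ =>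
    ray u _ fun x hx => by
      have := h2 _ ⟨x • rk ξ, ⟨(rk_symm ξ).smul x, fun η => by
        rw [qf_smul, qf_rk]; positivity⟩, rfl⟩
      simp only [hf, qf_smul, qf_rk, map_smul, smul_eq_mul] at this
      rw [mul_sub, mul_sum]
      convert this using 2
      · exact sum_congr rfl fun _ _ => by ring
      · ring
  have hO1 : ∀ (v : σ → ℝ) (x : ℝ), (∀ S, 0 < v S) → 0 < x →
      ∑ S, l S * cap S - μ * H < ∑ S, l S * v S + μ * x + u := fun v x hv hx => by
    have := h1 (cap - v, H + x) ⟨fun S => by simp [hv S], by simp [hx]⟩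
    simp only [hf, Pi.sub_apply, mul_sub, sum_sub_distrib] at this
    linarith
  have hl : ∀ S, 0 ≤ l S := fun S =>
    ray (∑ S, l S * cap S - μ * H - ∑ S, l S - μ - u) _ fun x hx => by
      have := hO1 (1 + Pi.single S x) 1 (fun S' => by
        by_cases h : S' = S
        · subst h; simp; linarith
        · simp [h]) one_pos
      simp only [Pi.add_apply, Pi.one_apply, mul_add, mul_one, sum_add_distrib, Pi.single_apply,
        mul_ite, mul_zero, sum_ite_eq', mem_univ, if_true] at this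
      linarith
  have hμ0 : 0 ≤ μ := ray (∑ S, l S * cap S - μ * H - ∑ S, l S - u) _ fun x hx => by
    have := hO1 1 x (fun _ => one_pos) hx
    simp only [Pi.one_apply, mul_one] at this
    linarith
  have hmain : ∑ S, l S * cap S - μ * H ≤ u := by
    refine le_of_forall_pos_le_add fun ε hε => ?_
    have hs : 0 ≤ ∑ S, l S := sum_nonneg fun S _ => hl S
    have := hO1 (fun _ => ε / (∑ S, l S + μ + 1)) (ε / (∑ S, l S + μ + 1))
      (fun _ => by positivity) (by positivity)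
    rw [← sum_mul, ← add_mul] at this
    have e : (∑ S, l S + μ) * (ε / (∑ S, l S + μ + 1)) ≤ ε := by
      rw [← mul_div_assoc, div_le_iff₀ (by positivity)]; nlinarith
    linarith
  have hμ1 : 0 < μ := by
    refine hμ0.lt_of_ne fun h0 => ?_
    have a : ∀ S ∈ univ, 0 ≤ l S * cap S := fun S _ => mul_nonneg (hl S) (hcap S).le
    have b := hO1 cap 1 hcap one_pos
    rw [← h0] at b
    linarith
  refine ⟨fun S => l S / μ, fun S => div_nonneg (hl S) hμ0, ?_, fun ξ => ?_⟩
  · simp only [div_mul_eq_mul_div, ← sum_div]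
    rw [div_le_iff₀ hμ1]; linarith
  · simp only [div_mul_eq_mul_div, ← sum_div]
    rw [le_div_iff₀ hμ1]; linarith [hcone ξ]

end Vale.Agent.P061
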