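import Vale.Agent.P061.Chain
import Vale.Agent.P061.VI
import Vale.Agent.P061.Scale

/-! A cut dominated form for which a well connected subgraph has large conductances. -/

namespace Vale.Agent.P061

open Finset Matrix

variable {V E : Type*} [Fintype V] [DecidableEq V] [Fintype E] [DecidableEq E] (s t : E → V)

/-- edges above a threshold -/
noncomputable def thr (E0 : Finset E) (c : E → ℝ) (u : ℝ) : Finset E := E0.filter fun e => u < c e

/-- activation levels of an edge -/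
def act (E0 : Finset E) (θ T : ℝ) (c : E → ℝ) (e : E) : Set ℝ :=
  {ρ | (0 ≤ ρ ∧ ρ ≤ 1) ∧ (ρ = 0 ∨ (e ∉ thr E0 c (T - ρ) ∧
    ¬Rel s t (thr E0 c (T - ρ)) θ (s e) (t e)))}

omit [Fintype E] [DecidableEq E] in
theorem act_zero (E0 : Finset E) (θ T : ℝ) (c : E → ℝ) (e : E) : 0 ∈ act s t E0 θ T c e :=
  ⟨⟨le_rfl, zero_le_one⟩, Or.inl rfl⟩

omit [Fintype E] [DecidableEq E] in
theorem act_bdd (E0 : Finset E) (θ T : ℝ) (c : E → ℝ) (e : E) : BddAbove (act s t E0 θ T c e) :=
  ⟨1, fun _ h => h.1.2⟩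

omit [DecidableEq E] in
theorem act_cont (E0 : Finset E) (θ T : ℝ) (e : E) :
    Continuous fun c => sSup (act s t E0 θ T c e) := by
  refine (LipschitzWith.of_le_add fun c c' => ?_).continuous
  refine csSup_le ⟨_, act_zero s t E0 θ T c e⟩ fun ρ hρ => ?_
  have h0 := le_csSup (act_bdd s t E0 θ T c' e) (act_zero s t E0 θ T c' e)
  by_cases h : ρ ≤ dist c c'
  · linarith
  push_neg at h
  have hd := dist_nonneg (x := c) (y := c')
  have hsub : thr E0 c' (T - (ρ - dist c c')) ⊆ thr E0 c (T - ρ) := fun a ha => by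
    simp only [thr, mem_filter] at ha ⊢
    have := dist_le_pi_dist c c' a
    rw [Real.dist_eq] at this
    exact ⟨ha.1, by linarith [ha.2, (abs_le.1 this).1]⟩
  have h1 := hρ.2.resolve_left (by linarith)
  have : ρ - dist c c' ∈ act s t E0 θ T c' e := ⟨⟨by linarith, by linarith [hρ.1.2]⟩,
    Or.inr ⟨fun h => h1.1 (hsub h), fun h => h1.2 (h.mono s t hsub)⟩⟩
  linarith [le_csSup (act_bdd s t E0 θ T c' e) this]

/-- indicator vector -/
def ind (S : Finset V) : V → ℝ := fun x => if x ∈ S then 1 else 0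

/-- the quadratic form as a linear functional of the matrix -/
def qfL (ξ : V → ℝ) : Matrix V V ℝ →ₗ[ℝ] ℝ where
  toFun D := qf D ξ
  map_add' A B := qf_add A B ξ
  map_smul' c A := qf_smul c A ξ

omit [Fintype E] [DecidableEq E] in
theorem sum_ind (F : Finset E) (S : Finset V) :
    ∑ e ∈ F, (ind S (s e) - ind S (t e)) ^ 2 = (cr s t F univ (· ∈ S)).card := by
  classical
  rw [cr, card_filter]
  push_cast
  refine sum_congr rfl fun e _ => ?_
  by_cases a : s e ∈ S <;> by_cases b : t e ∈ S <;> simp [ind, a, b]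

variable {s t}

theorem core [Nontrivial V] (hloop : ∀ e, s e ≠ t e) {E0 : Finset E} {τ θ T : ℝ} {p L : ℕ}
    (hE0 : PC s t E0 univ τ) (hθ : 0 < θ) (hT : 0 ≤ T) (hL : 1 ≤ L) (hp : 2 ≤ p)
    (c1 : 1024 * p * T ≤ L) (c2 : 16 * p * θ ≤ 2 ^ p * (τ - θ))
    (c3 : 64 * p * L * (2 * L + 14) ^ 2 ≤ τ - θ)
    (c4 : 7168 * p * L * (2 * L + 14) * (T + 1) ≤ θ) (c5 : 2 * (L + 6) ≤ 2 ^ p) :
    ∃ D : Matrix V V ℝ, PD D ∧
      (∀ S : Finset V, S.Nonempty → S ≠ univ →
        qf D (ind S) ≤ 2 * (cr s t E0 univ (· ∈ S)).card) ∧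
      ∃ F ⊆ E0, PC s t F univ θ ∧ ∀ e ∈ F, ∀ f, (T - 1) * (f (s e) - f (t e)) ^ 2 ≤ qf D f := by
  classical
  have hτ : 0 < τ := by
    have : (0 : ℝ) ≤ 64 * p * L * (2 * L + 14) ^ 2 := by positivity
    linarith
  let σ := {S : Finset V // S.Nonempty ∧ S ≠ univ}
  let cap : σ → ℝ := fun S => (cr s t E0 univ (· ∈ S.1)).card
  have hcap : ∀ S, 0 < cap S := fun S => by
    obtain ⟨x, hx⟩ := S.2.1
    obtain ⟨y, hy⟩ : ∃ y, y ∉ S.1 := by
      by_contra h
      push_neg at h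
      exact S.2.2 (eq_univ_iff_forall.2 h)
    exact hτ.trans_le (hE0.cut _ (mem_univ x) (mem_univ y) hx hy)
  let K : Set (Matrix V V ℝ) := {D | PSD D ∧ ∀ S : σ, qf D (ind S.1) ≤ cap S}
  have hqc : ∀ ξ : V → ℝ, Continuous fun D : Matrix V V ℝ => qf D ξ := fun ξ => by
    unfold qf; fun_prop
  have hK : IsCompact K := by
    refine (isCompact_univ_pi fun _ : V => isCompact_univ_pi fun _ : V =>
      isCompact_Icc (a := -(E0.card : ℝ)) (b := E0.card)).of_isClosed_subset ?_ ?_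
    · have : K = ({D | Dᵀ = D} ∩ ⋂ ξ, {D | 0 ≤ qf D ξ}) ∩ ⋂ S : σ, {D | qf D (ind S.1) ≤ cap S} := by
        ext D; simp [K, PSD, IsSymm]
      rw [this]
      exact ((isClosed_eq (by fun_prop) continuous_id).inter
        (isClosed_iInter fun ξ => isClosed_le continuous_const (hqc ξ))).inter
        (isClosed_iInter fun S => isClosed_le (hqc _) continuous_const)
    · intro D hD x _ y _
      have h1 : ∀ x, qf D (Pi.single x 1) ≤ E0.card := fun x => by
        have := hD.2 ⟨{x}, singleton_nonempty x, singleton_ne_univ x⟩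
        have e : ind {x} = Pi.single x 1 := by ext y; simp [ind, Pi.single_apply]
        rw [e] at this
        exact this.trans (Nat.cast_le.2 (card_le_card fun e he => ((mem_cr s t).1 he).1))
      have h2 := hD.1.cs (Pi.single x 1) (Pi.single y 1)
      have h3 : D x y ^ 2 ≤ (E0.card : ℝ) ^ 2 := by
        have := mul_le_mul (h1 x) (h1 y) (hD.1.2 _) (Nat.cast_nonneg _)
        have e : Pi.single x 1 ⬝ᵥ D *ᵥ Pi.single y 1 = D x y := by simp [mulVec, dotProduct, Pi.single_apply]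
        rw [e] at h2
        exact h2.trans (this.trans_eq (sq _).symm)
      exact abs_le.1 (abs_le_of_sq_le_sq h3 (Nat.cast_nonneg _))
  have hKc : Convex ℝ K := by
    rintro A ⟨a1, a2⟩ B ⟨b1, b2⟩ a b ha hb hab
    refine ⟨⟨(a1.1.smul a).add (b1.1.smul b), fun ξ => ?_⟩, fun S => ?_⟩
    · rw [qf_add, qf_smul, qf_smul]
      exact add_nonneg (mul_nonneg ha (a1.2 ξ)) (mul_nonneg hb (b1.2 ξ))
    · rw [qf_add, qf_smul, qf_smul]
      exact convex_Iic (cap S) (a2 S) (b2 S) ha hb hab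
  have hK0 : (0 : Matrix V V ℝ) ∈ K :=
    ⟨⟨by simp [IsSymm], fun ξ => by simp [qf]⟩, fun S => by simpa [qf] using (hcap S).le⟩
  have hn : (0 : ℝ) < Fintype.card V := by exact_mod_cast Fintype.card_pos
  let N : Matrix V V ℝ → Matrix V V ℝ := fun D => D + (Fintype.card V : ℝ)⁻¹ • 1
  have hq1 : ∀ ξ : V → ℝ, qf 1 ξ = ξ ⬝ᵥ ξ := fun ξ => by simp [qf]
  have hN : ∀ D ∈ K, PD (N D) := fun D hD => ⟨hD.1.1.add (isSymm_one.smul _), fun ξ h => by
    rw [qf_add, qf_smul, hq1]
    refine add_pos_of_nonneg_of_pos (hD.1.2 ξ) (mul_pos (inv_pos.2 hn) ?_)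
    exact (dotProduct_self_star_pos_iff (v := ξ)).2 h⟩
  have hNi : ContinuousOn (fun D => (N D)⁻¹) K := by
    simp only [Matrix.inv_def, Ring.inverse_eq_inv']
    have h1 : Continuous N := by fun_prop
    exact (h1.matrix_det.continuousOn.inv₀ fun D hD => (hN D hD).det_pos.ne').smul
      h1.matrix_adjugate.continuousOn
  let R : Matrix V V ℝ → E → ℝ := fun D e => bv s t e ⬝ᵥ (N D)⁻¹ *ᵥ bv s t e
  have hR : ∀ D ∈ K, ∀ e, 0 < R D e := fun D hD e => by
    simp only [R]
    rw [← (hN D hD).qf_inv]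
    refine (hN D hD).2 _ fun h => ?_
    have h1 := (hN D hD).mul_inv (bv s t e)
    rw [h, mulVec_zero] at h1
    have := congrFun h1 (s e)
    simp [bv, hloop e] at this
  have hRc : ∀ e, ContinuousOn (fun D => (R D e)⁻¹) K := fun e =>
    ((by fun_prop : Continuous fun A : Matrix V V ℝ => bv s t e ⬝ᵥ A *ᵥ bv s t e).comp_continuousOn
      hNi).inv₀ fun D hD => (hR D hD e).ne'
  let f : Matrix V V ℝ → E → V → ℝ := fun D e => (R D e)⁻¹ • (N D)⁻¹ *ᵥ bv s t e
  have hfc : ∀ e, ContinuousOn (fun D => f D e) K := fun e => (hRc e).smul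
    ((by fun_prop : Continuous fun A : Matrix V V ℝ => A *ᵥ bv s t e).comp_continuousOn hNi)
  let a : Matrix V V ℝ → E → ℝ := fun D e => sSup (act s t E0 θ T (fun e => (R D e)⁻¹) e)
  have hac : ∀ e, ContinuousOn (fun D => a D e) K := fun e =>
    (act_cont s t E0 θ T e).comp_continuousOn (continuousOn_pi.2 hRc)
  let G : Matrix V V ℝ → Matrix V V ℝ →ₗ[ℝ] ℝ := fun D => ∑ e ∈ E0, a D e • qfL (f D e)
  have hG : ∀ D D', G D D' = ∑ e ∈ E0, a D e * qf D' (f D e) := fun D D' => by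
    simp [G, qfL, LinearMap.sum_apply]
  have hq2 : Continuous fun p : Matrix V V ℝ × (V → ℝ) => qf p.1 p.2 := by unfold qf; fun_prop
  obtain ⟨D, hD, hmax⟩ := ky_fan hK hKc ⟨0, hK0⟩ G (fun D' => by
      simp only [hG]
      exact continuousOn_finset_sum _ fun e _ => (hac e).mul
        (hq2.comp_continuousOn (continuousOn_const.prodMk (hfc e)))) (by
      simp only [hG]
      exact continuousOn_finset_sum _ fun e _ => (hac e).mul
        (hq2.comp_continuousOn (continuousOn_id.prodMk (hfc e))))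
  refine ⟨N D, hN D hD, fun S h1 h2 => ?_, thr E0 (fun e => (R D e)⁻¹) (T - 1),
    filter_subset _ _, ?_, fun e he g => ?_⟩
  · have b1 := hD.2 ⟨S, h1, h2⟩
    have b2 : (1 : ℝ) ≤ cap ⟨S, h1, h2⟩ := Nat.one_le_cast.2 (Nat.cast_pos.1 (hcap ⟨S, h1, h2⟩))
    have b3 : ind S ⬝ᵥ ind S ≤ Fintype.card V := by
      rw [← card_univ, ← mul_one (univ.card : ℝ), ← nsmul_eq_mul]
      exact sum_le_card_nsmul _ _ _ fun x _ => by simp only [ind]; split_ifs <;> norm_num
    rw [qf_add, qf_smul, hq1]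
    have := (inv_mul_le_iff₀ hn).2 (b3.trans_eq (mul_one _).symm)
    simp only [cap] at b1 b2
    linarith
  · by_contra hcon
    obtain ⟨lam, l0, l1, l2⟩ := cut_dual (fun S : σ => ind S.1) cap hcap (G D)
      fun D' h1 h2 => hmax D' ⟨h1, h2⟩
    have ha0 : ∀ e, 0 ≤ a D e := fun e => le_csSup (act_bdd s t _ _ _ _ _) (act_zero s t _ _ _ _ _)
    have hqM : ∀ ξ, qf (∑ S : σ, lam S • rk (ind S.1)) ξ = ∑ S : σ, lam S * (ind S.1 ⬝ᵥ ξ) ^ 2 :=
      fun ξ => by simp only [qf_sum, qf_smul, qf_rk]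
    refine chain_false hE0 hθ hT hL hp c1 c2 c3 c4 c5
      (fun ρ => thr E0 (fun e => (R D e)⁻¹) (T - ρ)) (fun _ => filter_subset _ _)
      (fun ρ ρ' h e he => ?_) hcon (a D) (fun e => ⟨ha0 e, csSup_le ⟨_, act_zero s t _ _ _ _ _⟩
        fun _ h => h.1.2⟩) (fun e _ ρ h0 h1 hr => ?_)
      (fun e _ ρ h0 h1 h2 h3 => le_csSup (act_bdd s t _ _ _ _ _) ⟨⟨h0.le, h1⟩, Or.inr ⟨h2, h3⟩⟩)
      (M := ∑ S : σ, lam S • rk (ind S.1))
      ⟨symm_sum _ _ fun _ _ => (rk_symm _).smul _, fun ξ => hqM ξ ▸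
        sum_nonneg fun S _ => mul_nonneg (l0 S) (sq_nonneg _)⟩ (f D) (fun e _ => ?_) (fun ξ => ?_)
      (fun x y => ∑ S : σ, lam S * (ind S.1 x - ind S.1 y) ^ 2) (fun x y => ?_) (fun x y => ?_)
      (fun x y z => ?_) ?_
    · simp only [thr, mem_filter] at he ⊢
      exact ⟨he.1, by linarith [he.2]⟩
    · obtain ⟨ρ', h2, h3⟩ := exists_lt_of_lt_csSup ⟨_, act_zero s t _ _ _ _ _⟩ h1
      refine (h2.2.resolve_left (by linarith)).2 (hr.mono s t fun e he => ?_)
      simp only [thr, mem_filter] at he ⊢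
      exact ⟨he.1, by linarith [he.2]⟩
    · rw [← bv_dot, dotProduct_smul, smul_eq_mul]
      exact inv_mul_cancel₀ (hR D hD e).ne'
    · have := l2 ξ
      rw [hG] at this
      simp only [qf_rk, dotProduct_comm ξ] at this
      rwa [hqM]
    · simp only [hqM, dot_sub]
    · exact sum_congr rfl fun S _ => by ring
    · rw [← sum_add_distrib]
      refine sum_le_sum fun S _ => ?_
      rw [← mul_add]
      refine mul_le_mul_of_nonneg_left ?_ (l0 S)
      simp only [ind]; split_ifs <;> norm_num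
    · rw [sum_comm]
      simp only [← mul_sum, sum_ind]
      refine l1.trans ?_
      rw [hG, mul_sum]
      refine sum_le_sum fun e he => ?_
      rcases (ha0 e).eq_or_lt with h | h
      · rw [← h]; simp
      · rw [mul_comm]
        refine mul_le_mul_of_nonneg_right ?_ h.le
        obtain ⟨ρ, h2, h3⟩ := exists_lt_of_lt_csSup ⟨_, act_zero s t _ _ _ _ _⟩ h
        have h4 := (h2.2.resolve_left h3.ne').1
        simp only [thr, mem_filter, he, true_and, not_lt] at h4
        have h5 : qf (N D) (f D e) = (R D e)⁻¹ := by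
          simp only [f]
          rw [qf_smul_vec, (hN D hD).qf_inv]
          change _ * R D e = _
          have := (hR D hD e).ne'
          field_simp
        rw [qf_add, qf_smul, hq1] at h5
        have h6 : 0 ≤ f D e ⬝ᵥ f D e := sum_nonneg fun _ _ => mul_self_nonneg _
        have := mul_nonneg (inv_pos.2 hn).le h6
        linarith
  · have b1 := (hN D hD).cs_inv (bv s t e) g
    rw [bv_dot] at b1
    have b2 := (mem_filter.1 he).2
    have b3 := hR D hD e
    have b4 := (inv_mul_le_iff₀ b3).2 b1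
    exact (mul_le_mul_of_nonneg_right b2.le (sq_nonneg _)).trans b4

end Vale.Agent.P061
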