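import Vale.Agent.P061.Core
import Vale.Agent.P061.KS

/-! Halving a graph with small loss in cuts and in partition connectivity. -/

namespace Vale.Agent.P061

open Finset Matrix

variable {V E : Type*} [Fintype V] [DecidableEq V] [Fintype E] [DecidableEq E]

theorem ks_two {N1 N2 : Matrix V V ℝ} (h1 : PD N1) (h2 : PD N2) (F : Finset E)
    (v u : E → V → ℝ) {ε : ℝ} (hε : 0 < ε) (hε1 : ε ≤ 1 / 2)
    (hv : ∀ ξ, ∑ e ∈ F, (v e ⬝ᵥ ξ) ^ 2 ≤ qf N1 ξ) (hu : ∀ ξ, ∑ e ∈ F, (u e ⬝ᵥ ξ) ^ 2 ≤ qf N2 ξ)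
    (hv' : ∀ e ∈ F, ∀ ξ, (v e ⬝ᵥ ξ) ^ 2 ≤ ε ^ 2 * qf N1 ξ)
    (hu' : ∀ e ∈ F, ∀ ξ, (u e ⬝ᵥ ξ) ^ 2 ≤ ε ^ 2 * qf N2 ξ) :
    ∃ F1 ⊆ F, (∀ ξ, ∑ e ∈ F1, (v e ⬝ᵥ ξ) ^ 2 ≤ (1 / 2 + 2 * ε) * qf N1 ξ) ∧
      ∀ ξ, ∑ e ∈ F \ F1, (u e ⬝ᵥ ξ) ^ 2 ≤ (1 / 2 + 2 * ε) * qf N2 ξ := by
  have hq : ∀ ξ : V ⊕ V → ℝ, qf (fromBlocks N1 0 0 N2) ξ =
      qf N1 (ξ ∘ Sum.inl) + qf N2 (ξ ∘ Sum.inr) := fun ξ => by
    simp [qf, fromBlocks_mulVec, dotProduct, Fintype.sum_sum_type]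
  have hN : PD (fromBlocks N1 0 0 N2) := by
    refine ⟨by simp [IsSymm, fromBlocks_transpose, h1.1.eq, h2.1.eq], fun ξ hξ => ?_⟩
    rw [hq]
    by_cases a : ξ ∘ Sum.inl = 0
    · refine add_pos_of_nonneg_of_pos (h1.psd.2 _) (h2.2 _ fun b => hξ ?_)
      ext (i | i)
      exacts [congrFun a i, congrFun b i]
    · exact add_pos_of_pos_of_nonneg (h1.2 _ a) (h2.psd.2 _)
  let c : E × Bool → V ⊕ V → ℝ := fun a => if a.1 ∈ F then
    (if a.2 then Sum.elim 0 (u a.1) else Sum.elim (v a.1) 0) else 0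
  have c0 : ∀ e ξ, (c (e, false) ⬝ᵥ ξ) ^ 2 = if e ∈ F then (v e ⬝ᵥ ξ ∘ Sum.inl) ^ 2 else 0 :=
    fun e ξ => by
      simp only [c]; split_ifs <;> simp_all [dotProduct, Fintype.sum_sum_type]
  have c1 : ∀ e ξ, (c (e, true) ⬝ᵥ ξ) ^ 2 = if e ∈ F then (u e ⬝ᵥ ξ ∘ Sum.inr) ^ 2 else 0 :=
    fun e ξ => by
      simp only [c]; split_ifs <;> simp_all [dotProduct, Fintype.sum_sum_type]
  obtain ⟨σ, hσ⟩ := ks_det hN c hε hε1 (fun ξ => by
      rw [Fintype.sum_prod_type, hq]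
      simp only [Fintype.sum_bool, c0, c1, sum_add_distrib, sum_ite_mem, univ_inter]
      linarith [hv (ξ ∘ Sum.inl), hu (ξ ∘ Sum.inr)]) (fun a ξ => by
      have a1 := mul_nonneg (sq_nonneg ε) (h1.psd.2 (ξ ∘ Sum.inl))
      have a2 := mul_nonneg (sq_nonneg ε) (h2.psd.2 (ξ ∘ Sum.inr))
      rw [hq, mul_add]
      rcases a with ⟨e, _ | _⟩
      · rw [c0]; split_ifs with h
        · linarith [hv' e h (ξ ∘ Sum.inl)]
        · linarith
      · rw [c1]; split_ifs with h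
        · linarith [hu' e h (ξ ∘ Sum.inr)]
        · linarith)
  refine ⟨F.filter fun e => σ e = false, filter_subset _ _, fun ξ => ?_, fun ξ => ?_⟩
  · have := hσ (Sum.elim ξ 0)
    rw [hq, Sum.elim_comp_inl, Sum.elim_comp_inr, qf_zero, add_zero] at this
    refine le_trans ?_ this
    refine (sum_congr rfl fun e he => ?_).trans_le
      (sum_le_univ_sum_of_nonneg fun _ => sq_nonneg _)
    rw [(mem_filter.1 he).2, c0, if_pos (mem_filter.1 he).1, Sum.elim_comp_inl]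
  · have := hσ (Sum.elim 0 ξ)
    rw [hq, Sum.elim_comp_inl, Sum.elim_comp_inr, qf_zero, zero_add] at this
    refine le_trans ?_ this
    refine (sum_congr rfl fun e he => ?_).trans_le
      (sum_le_univ_sum_of_nonneg fun _ => sq_nonneg _)
    have h : σ e = true := by simpa [(mem_sdiff.1 he).1] using (mem_sdiff.1 he).2
    rw [h, c1, if_pos (mem_sdiff.1 he).1, Sum.elim_comp_inr]

variable {s t : E → V}

omit [Fintype E] in
theorem pc_of_spec [Nonempty V] {F F1 : Finset E} (hF : F1 ⊆ F) (u : E → V → ℝ)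
    (hu0 : ∀ e f, f (s e) = f (t e) → u e ⬝ᵥ f = 0) {N : Matrix V V ℝ} (hN : PD N)
    (hq : ∀ f, qf N f = ((1 : V → ℝ) ⬝ᵥ f) ^ 2 + ∑ e ∈ F, (u e ⬝ᵥ f) ^ 2) {β x : ℝ} (hβ : 0 < β)
    (hx : x ≤ 1) (hu : ∀ e ∈ F, ∀ f, (u e ⬝ᵥ f) ^ 2 ≤ β * qf N f)
    (h2 : ∀ f, ∑ e ∈ F \ F1, (u e ⬝ᵥ f) ^ 2 ≤ x * qf N f) : PC s t F1 univ ((1 - x) / β) := by
  intro q
  let K : Matrix V (univ.image q) ℝ := Matrix.of fun x z => if q x = z then 1 else 0
  have hK : ∀ b x, (K *ᵥ b) x = b ⟨q x, mem_image_of_mem q (mem_univ x)⟩ := fun b x => by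
    simp only [K, mulVec, dotProduct, of_apply, ite_mul, one_mul, zero_mul]
    rw [sum_eq_single ⟨q x, mem_image_of_mem q (mem_univ x)⟩]
    · simp
    · intro z _ h; exact if_neg fun h' => h (Subtype.ext h'.symm)
    · simp
  obtain ⟨g, g1, g2, g3⟩ := exists_onb hN K fun b hb => by
    ext ⟨z, hz⟩
    obtain ⟨x, -, rfl⟩ := mem_image.1 hz
    exact (hK b x).symm.trans (congrFun hb x)
  have hn : (Fintype.card V : ℝ) ≠ 0 := by exact_mod_cast Fintype.card_ne_zero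
  have h3 : ∀ f, (1 - x) * ∑ e ∈ F, (u e ⬝ᵥ f) ^ 2 ≤ ∑ e ∈ F1, (u e ⬝ᵥ f) ^ 2 := fun f => by
    have a := h2 (f - (((1 : V → ℝ) ⬝ᵥ f) / Fintype.card V) • 1)
    have b : ∀ e, u e ⬝ᵥ (f - (((1 : V → ℝ) ⬝ᵥ f) / Fintype.card V) • 1) = u e ⬝ᵥ f := fun e => by
      rw [dotProduct_sub, dotProduct_smul, hu0 e 1 rfl, smul_zero, sub_zero]
    have c : (1 : V → ℝ) ⬝ᵥ (f - (((1 : V → ℝ) ⬝ᵥ f) / Fintype.card V) • 1) = 0 := by
      rw [dotProduct_sub, dotProduct_smul, one_dotProduct_one, smul_eq_mul, div_mul_cancel₀ _ hn,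
        sub_self]
    rw [hq, c] at a
    simp only [b] at a
    linarith [sum_sdiff (f := fun e => (u e ⬝ᵥ f) ^ 2) hF]
  have h4 := g3 1 1 zero_le_one fun f => by
    rw [hq]; linarith [sum_nonneg fun e (_ : e ∈ F) => sq_nonneg (u e ⬝ᵥ f)]
  have h5 : ((univ.image q).card : ℝ) - 1 ≤ ∑ i, ∑ e ∈ F, (u e ⬝ᵥ g i) ^ 2 := by
    have := sum_congr (s₁ := univ) rfl fun i _ => (hq (g i)).symm.trans (g2 i)
    rw [sum_add_distrib, sum_const, card_univ, Fintype.card_coe, nsmul_eq_mul, mul_one] at this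
    linarith
  have h6 : ∑ i, ∑ e ∈ F1, (u e ⬝ᵥ g i) ^ 2 ≤ (cr s t F1 univ q).card * β := by
    rw [sum_comm, ← nsmul_eq_mul, ← sum_subset (s₁ := cr s t F1 univ q)
      (fun e he => ((mem_cr s t).1 he).1) fun e he h => ?_]
    · exact sum_le_card_nsmul _ _ _ fun e he => g3 _ _ hβ.le (hu e (hF ((mem_cr s t).1 he).1))
    · refine sum_eq_zero fun i _ => ?_
      obtain ⟨b, hb⟩ := g1 i
      have : q (s e) = q (t e) := by simpa [mem_cr, he] using h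
      rw [hu0 e (g i) (by simp only [hb, hK, this])]
      simp
  have h7 := sum_le_sum fun i (_ : i ∈ univ) => h3 (g i)
  rw [← mul_sum] at h7
  rw [div_mul_eq_mul_div, div_le_iff₀ hβ]
  exact (mul_le_mul_of_nonneg_left h5 (sub_nonneg.2 hx)).trans (h7.trans h6)

theorem pow_four_le (y : ℕ) (hy : 32 ≤ y) : 4096 * y ^ 4 ≤ 2 ^ y := by
  induction y, hy using Nat.le_induction with
  | base => norm_num
  | succ y hy ih =>
    have h1 : 32 * (y + 1) ≤ 33 * y := by omega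
    have h2 := Nat.pow_le_pow_left h1 4
    rw [mul_pow, mul_pow] at h2
    rw [pow_succ 2]
    omega

theorem halve [Nontrivial V] (hloop : ∀ e, s e ≠ t e) {E0 : Finset E} {τ : ℝ} {y : ℕ}
    (hy : 32 ≤ y) (hτ : 2 ^ 43 * (y : ℝ) ^ 14 ≤ τ) (hE0 : PC s t E0 univ τ) :
    ∃ E1 ⊆ E0, PC s t E1 univ ((1 - 7 / y) / 2 * τ) ∧ ∀ S : Finset V, S.Nonempty → S ≠ univ →
      ((cr s t E1 univ (· ∈ S)).card : ℝ) ≤ (1 + 7 / y) / 2 * (cr s t E0 univ (· ∈ S)).card := by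
  have hy0 : (32 : ℝ) ≤ y := by exact_mod_cast hy
  have hy1 : (0 : ℝ) < y := by linarith
  have hy2 : (1 : ℝ) ≤ y := by linarith
  obtain ⟨ε, hε⟩ : ∃ ε : ℝ, ε = 1 / y := ⟨_, rfl⟩
  have hε0 : 0 < ε := by rw [hε]; positivity
  have hε1 : ε * y = 1 := by rw [hε]; field_simp
  have hε2 : ε ≤ 1 / 32 := by rw [hε]; exact one_div_le_one_div_of_le (by norm_num) hy0
  have hτ0 : 0 < τ := lt_of_lt_of_le (by positivity) hτ
  have hθ : τ / 2 ≤ (1 - ε) * τ := by nlinarith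
  have p3 : (1 : ℝ) ≤ y ^ 3 := one_le_pow₀ hy2
  have hL : ((1024 * y * (y ^ 3 + 1) : ℕ) : ℝ) ≤ 2 ^ 11 * y ^ 4 := by push_cast; nlinarith
  have hL2 : 2 * ((1024 * y * (y ^ 3 + 1) : ℕ) : ℝ) + 14 ≤ 2 ^ 13 * y ^ 4 := by
    linarith [one_le_pow₀ hy2 (n := 4)]
  have h4 := pow_four_le y hy
  obtain ⟨D, hD, hDc, F, hF, hFc, hFe⟩ := core (θ := (1 - ε) * τ) (T := y ^ 3 + 1) (p := y)
    (L := 1024 * y * (y ^ 3 + 1)) hloop hE0 (by linarith) (by positivity)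
    (Nat.succ_le_of_lt (by positivity)) (by omega) (by push_cast; exact le_rfl) (by
      have a : (4096 : ℝ) * y ^ 4 ≤ 2 ^ y := by exact_mod_cast h4
      have b : (y : ℝ) ^ 2 ≤ y ^ 4 := pow_le_pow_right₀ hy2 (by norm_num)
      have c : 16 * y * y * (ε * τ) ≤ 2 ^ y * (ε * τ) :=
        mul_le_mul_of_nonneg_right (by nlinarith) (by positivity)
      have d : 16 * y * y * (ε * τ) = 16 * y * τ := by linear_combination 16 * y * τ * hε1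
      have : 0 ≤ 16 * y * (ε * τ) := by positivity
      linarith) (by
      calc _ ≤ 64 * y * (2 ^ 11 * y ^ 4) * (2 ^ 13 * y ^ 4 : ℝ) ^ 2 := by gcongr
        _ = ε * (2 ^ 43 * y ^ 14) := by linear_combination (-2 ^ 43 * (y : ℝ) ^ 13) * hε1
        _ ≤ ε * τ := by gcongr
        _ = _ := by ring) (by
      calc _ ≤ 8192 * y * (2 ^ 11 * y ^ 4) * (2 ^ 13 * y ^ 4 : ℝ) * (4 * y ^ 3) := by
            gcongr
            · norm_num
            · linarith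
        _ = 2 ^ 39 * y ^ 12 := by ring
        _ ≤ 2 ^ 39 * y ^ 14 := by gcongr; norm_num
        _ ≤ _ := by linarith [one_le_pow₀ hy2 (n := 14)]) (by
      have a : 1 ≤ y ^ 3 := Nat.one_le_pow _ _ (by omega)
      have b : y * 32 ≤ y * y ^ 3 := Nat.mul_le_mul_left _ (hy.trans (Nat.le_self_pow (by norm_num) _))
      have c : y * y ^ 3 = y ^ 4 := by ring
      have d : 1024 * y * (y ^ 3 + 1) = 1024 * y ^ 4 + 1024 * y := by ring
      omega)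
  obtain ⟨lam, l0, l1, l2⟩ := exists_scale s t (by linarith) hFc hε0
  have hq1 : ∀ ξ, qf (ε • D + ∑ e ∈ F, rk (bv s t e)) ξ =
      ε * qf D ξ + ∑ e ∈ F, (bv s t e ⬝ᵥ ξ) ^ 2 := fun ξ => by
    simp only [qf_add, qf_smul, qf_sum, qf_rk]
  have hu : ∀ e ξ, (√(lam e) • bv s t e ⬝ᵥ ξ) ^ 2 = lam e * (ξ (s e) - ξ (t e)) ^ 2 := fun e ξ => by
    rw [smul_dotProduct, smul_eq_mul, mul_pow, Real.sq_sqrt (l0 e).le, bv_dot]
  have hq2 : ∀ ξ, qf (rk 1 + ∑ e ∈ F, lam e • rk (bv s t e)) ξ =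
      ((1 : V → ℝ) ⬝ᵥ ξ) ^ 2 + ∑ e ∈ F, (√(lam e) • bv s t e ⬝ᵥ ξ) ^ 2 := fun ξ => by
    simp only [qf_add, qf_smul, qf_sum, qf_rk, hu, bv_dot]
  have hθ0 : 0 < (1 - ε) * τ := by linarith
  obtain ⟨E1, h1, h2, h3⟩ := ks_two (N1 := ε • D + ∑ e ∈ F, rk (bv s t e))
    ⟨(hD.1.smul ε).add (symm_sum _ _ fun _ _ => rk_symm _), fun ξ h => by
      rw [hq1]
      exact add_pos_of_pos_of_nonneg (mul_pos hε0 (hD.2 ξ h)) (sum_nonneg fun _ _ => sq_nonneg _)⟩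
    l1 F (bv s t) (fun e => √(lam e) • bv s t e) hε0 (by linarith)
    (fun ξ => by rw [hq1]; linarith [mul_nonneg hε0.le (hD.psd.2 ξ)])
    (fun ξ => by rw [hq2]; linarith [sq_nonneg ((1 : V → ℝ) ⬝ᵥ ξ)])
    (fun e he ξ => by
      have a := mul_le_mul_of_nonneg_left (hFe e he ξ) (pow_pos hε0 3).le
      have b := mul_nonneg (sq_nonneg ε) (sum_nonneg fun e (_ : e ∈ F) => sq_nonneg (bv s t e ⬝ᵥ ξ))
      have c : ε ^ 3 * (((y : ℝ) ^ 3 + 1 - 1) * (ξ (s e) - ξ (t e)) ^ 2) =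
          (ξ (s e) - ξ (t e)) ^ 2 := by
        rw [add_sub_cancel_right, ← mul_assoc, ← mul_pow, hε1, one_pow, one_mul]
      rw [hq1, bv_dot s t e]
      linarith)
    (fun e he ξ => by
      rw [hu]
      refine (l2 e he ξ).trans (mul_le_mul_of_nonneg_right ?_ (l1.psd.2 ξ))
      rw [div_le_iff₀ hθ0]
      have a : (y : ℝ) ^ 2 ≤ y ^ 14 := pow_le_pow_right₀ hy2 (by norm_num)
      have b : ε ^ 2 * (8 * y ^ 2) ≤ ε ^ 2 * ((1 - ε) * τ) :=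
        mul_le_mul_of_nonneg_left (by linarith [sq_nonneg (y : ℝ)]) (sq_nonneg _)
      have c : ε ^ 2 * (8 * y ^ 2) = 8 := by
        rw [mul_left_comm, ← mul_pow, hε1]; norm_num
      nlinarith)
  have e7 : 7 / (y : ℝ) = 7 * ε := by rw [hε]; ring
  rw [e7]
  refine ⟨E1, h1.trans hF, (pc_of_spec h1 (fun e => √(lam e) • bv s t e) (fun e f h => by
    rw [smul_dotProduct, bv_dot, h, sub_self, smul_zero]) l1 hq2 (by positivity) (by linarith)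
    (fun e he f => (hu e f).trans_le (l2 e he f)) h3).le univ_nonempty ?_, fun S a b => ?_⟩
  · rw [div_div_eq_mul_div, le_div_iff₀ (by positivity)]
    have : (1 - 7 * ε) / 2 * (1 + ε) ^ 2 ≤ (1 - (1 / 2 + 2 * ε)) * (1 - ε) := by
      nlinarith [pow_pos hε0 2, pow_pos hε0 3]
    nlinarith [mul_le_mul_of_nonneg_right this hτ0.le]
  · have a1 := h2 (ind S)
    rw [hq1] at a1
    simp only [bv_dot, sum_ind] at a1
    have a2 := mul_le_mul_of_nonneg_left (hDc S a b) hε0.le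
    have a3 : ((cr s t F univ (· ∈ S)).card : ℝ) ≤ (cr s t E0 univ (· ∈ S)).card :=
      Nat.cast_le.2 (card_le_card fun e he => by
        rw [mem_cr] at he ⊢; exact ⟨hF he.1, he.2⟩)
    refine a1.trans ((mul_le_mul_of_nonneg_left (add_le_add a2 a3) (by positivity)).trans ?_)
    have : (1 / 2 + 2 * ε) * (ε * 2 + 1) ≤ (1 + 7 * ε) / 2 := by nlinarith
    nlinarith [mul_le_mul_of_nonneg_right this
      (Nat.cast_nonneg (α := ℝ) (cr s t E0 univ (· ∈ S)).card)]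

end Vale.Agent.P061
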