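import Vale.Agent.P061.Halve

/-! Iterated halving. -/

namespace Vale.Agent.P061

open Finset

theorem exists_A : ∃ A : ℝ, 0 < A ∧ ∀ i : ℕ,
    2 ^ 43 * ((64 * (i + 1) * (i + 2) : ℕ) : ℝ) ^ 14 ≤ A * 2 ^ i := by
  obtain ⟨C, hC⟩ := (tendsto_pow_const_div_const_pow_of_one_lt 28
    (r := 2) (by norm_num)).bddAbove_range
  have h : ∀ i : ℕ, ((i : ℝ) + 2) ^ 28 ≤ 4 * C * 2 ^ i := fun i => by
    have := hC ⟨i + 2, rfl⟩
    simp only at this
    rw [div_le_iff₀ (by positivity), pow_add (2 : ℝ)] at this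
    push_cast at this
    linarith
  have hC0 : 0 < C := by have := h 0; norm_num at this; linarith
  refine ⟨2 ^ 43 * 64 ^ 14 * (4 * C), by positivity, fun i => ?_⟩
  push_cast
  calc _ ≤ 2 ^ 43 * (64 * (i + 2) * (i + 2) : ℝ) ^ 14 := by gcongr; norm_num
    _ = 2 ^ 43 * 64 ^ 14 * ((i : ℝ) + 2) ^ 28 := by ring
    _ ≤ 2 ^ 43 * 64 ^ 14 * (4 * C * 2 ^ i) := by gcongr; exact h i
    _ = _ := by ring

theorem thin_sub : ∃ A : ℝ, ∀ (V E : Type) [Fintype V] [DecidableEq V] [Fintype E] [DecidableEq E]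
    [Nontrivial V] (s t : E → V), (∀ e, s e ≠ t e) → ∀ τ : ℝ, 0 < τ → ∀ E0 : Finset E,
      PC s t E0 univ τ → ∃ E1 ⊆ E0, (∃ θ, 0 < θ ∧ PC s t E1 univ θ) ∧
        ∀ S : Finset V, S.Nonempty → S ≠ univ →
          τ * (cr s t E1 univ (· ∈ S)).card ≤ A * (cr s t E0 univ (· ∈ S)).card := by
  obtain ⟨A, hA, hA'⟩ := exists_A
  refine ⟨2 * A, fun V E _ _ _ _ _ s t hloop => ?_⟩
  have key : ∀ i : ℕ, ∀ τ : ℝ, 0 < τ → τ ≤ A * 2 ^ i → ∀ E0 : Finset E,
      PC s t E0 univ τ → ∃ E1 ⊆ E0, (∃ θ, 0 < θ ∧ PC s t E1 univ θ) ∧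
        ∀ S : Finset V, S.Nonempty → S ≠ univ → τ * (cr s t E1 univ (· ∈ S)).card ≤
          (2 - 1 / ((i : ℝ) + 1)) * A * (cr s t E0 univ (· ∈ S)).card := by
    intro i
    induction i with
    | zero =>
      intro τ h0 h1 E0 h2
      refine ⟨E0, subset_rfl, ⟨τ, h0, h2⟩, fun S _ _ => ?_⟩
      exact mul_le_mul_of_nonneg_right (by norm_num at h1 ⊢; linarith) (Nat.cast_nonneg _)
    | succ i ih =>
      intro τ h0 h1 E0 h2
      obtain ⟨z, hz⟩ : ∃ z : ℝ, z = 1 / ((i + 1) * (i + 2)) := ⟨_, rfl⟩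
      have hz0 : 0 < z := by rw [hz]; positivity
      have hz1 : z ≤ 1 := by
        rw [hz, div_le_one (by positivity)]; nlinarith [Nat.cast_nonneg (α := ℝ) i]
      have hg : (2 - 1 / (((i + 1 : ℕ) : ℝ) + 1)) = 2 - 1 / ((i : ℝ) + 1) + z := by
        rw [hz]; push_cast; field_simp; ring
      have hg0 : 0 < 1 / ((i : ℝ) + 1) := by positivity
      have hg1 : 1 / ((i : ℝ) + 1) ≤ 1 := by
        rw [div_le_one (by positivity)]; linarith [Nat.cast_nonneg (α := ℝ) i]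
      rw [hg]
      generalize 1 / ((i : ℝ) + 1) = g at *
      by_cases h3 : τ ≤ A * 2 ^ i
      · obtain ⟨E1, a1, a2, a3⟩ := ih τ h0 h3 E0 h2
        refine ⟨E1, a1, a2, fun S b1 b2 => (a3 S b1 b2).trans ?_⟩
        gcongr; linarith
      · obtain ⟨E1, a1, a2, a3⟩ := halve hloop (y := 64 * (i + 1) * (i + 2))
          (by nlinarith [Nat.zero_le i]) ((hA' i).trans (not_le.1 h3).le) h2
        have e : 7 / ((64 * (i + 1) * (i + 2) : ℕ) : ℝ) = 7 * z / 64 := by
          rw [hz]; push_cast; field_simp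
        rw [e] at a2 a3
        obtain ⟨E2, b1, b2, b3⟩ := ih _ (mul_pos (by linarith) h0) (by
          rw [pow_succ] at h1; nlinarith) E1 a2
        refine ⟨E2, b1.trans a1, b2, fun S c1 c2 => ?_⟩
        have d1 := (b3 S c1 c2).trans (mul_le_mul_of_nonneg_left (a3 S c1 c2)
          (mul_nonneg (by linarith) hA.le))
        refine le_of_mul_le_mul_left ?_ (show 0 < (1 - 7 * z / 64) / 2 by linarith)
        have d2 : (2 - g) * ((1 + 7 * z / 64) / 2) ≤ (1 - 7 * z / 64) / 2 * (2 - g + z) := by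
          nlinarith
        have d3 := mul_le_mul_of_nonneg_right d2 (mul_nonneg hA.le
          (Nat.cast_nonneg (α := ℝ) (cr s t E0 univ (· ∈ S)).card))
        linarith
  intro τ h0 E0 h1
  obtain ⟨i, hi⟩ := pow_unbounded_of_one_lt (τ / A) (show (1 : ℝ) < 2 by norm_num)
  obtain ⟨E1, a1, a2, a3⟩ := key i τ h0 ((div_le_iff₀' hA).1 hi.le) E0 h1
  refine ⟨E1, a1, a2, fun S b1 b2 => (a3 S b1 b2).trans ?_⟩
  gcongr
  have : 0 < 1 / ((i : ℝ) + 1) := by positivity
  linarith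

variable {V E : Type*} [Fintype V] [DecidableEq V] [DecidableEq E] {s t : E → V}

theorem pc_of_conn {E0 : Finset E} {k : ℝ} (hk : 0 ≤ k)
    (h : ∀ S : Finset V, S.Nonempty → S ≠ univ → k ≤ (cr s t E0 univ (· ∈ S)).card) :
    PC s t E0 univ (k / 2) := by
  intro q
  by_cases h1 : (univ.image q).card ≤ 1
  · have : ((univ.image q).card : ℝ) ≤ 1 := by exact_mod_cast h1
    exact (mul_nonpos_of_nonneg_of_nonpos (by positivity) (by linarith)).trans (Nat.cast_nonneg _)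
  have h2 : ∀ u ∈ univ.image q, k ≤ ((cr s t E0 univ q).filter fun e => q (s e) = u).card +
      ((cr s t E0 univ q).filter fun e => q (t e) = u).card := by
    intro u hu
    obtain ⟨w, hw, hne⟩ := exists_mem_ne (not_le.1 h1) u
    obtain ⟨x, -, rfl⟩ := mem_image.1 hu
    obtain ⟨y, -, rfl⟩ := mem_image.1 hw
    refine (h (univ.filter fun z => q z = q x) ⟨x, by simp⟩ fun a => hne ?_).trans ?_
    · simpa using eq_univ_iff_forall.1 a y
    · rw [← Nat.cast_add, Nat.cast_le]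
      refine le_trans (card_le_card fun e he => ?_) (card_union_le _ _)
      simp only [mem_cr, mem_union, mem_filter, mem_univ, true_and] at he ⊢
      by_cases a : q (s e) = q x <;> by_cases b : q (t e) = q x <;> simp_all
      exact fun c => b c.symm
  have h3 := sum_le_sum h2
  rw [sum_add_distrib, ← Nat.cast_sum, ← Nat.cast_sum,
    ← card_eq_sum_card_fiberwise fun e _ => mem_image_of_mem q (mem_univ (s e)),
    ← card_eq_sum_card_fiberwise fun e _ => mem_image_of_mem q (mem_univ (t e)), sum_const,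
    nsmul_eq_mul] at h3
  linarith

end Vale.Agent.P061
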